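import Crest.Agent.X262.Top.Bal
import Crest.Agent.X262.Sark.Defs
import Crest.Agent.X262.Geo.Val
import Crest.Agent.X262.Loc95.Prj

/-!
# Row 262, BND (helper51): K3 centres of large degree cancel along a Sarkisov link

* `PG2 F`, `NoPG K`   : surface fields with `p_g > 0`;
* `rsd S V`, `ctr H V`, `cl H V` : residues of `S` in `Rf V`, the residue field of the centre of
  `V` on the `H`-model, its algebraic closure in `Rf V`; `fdg V L a` : degree on the generic fibre;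
* `Srf H V`           : the centre is a surface with `p_g > 0`;
* `Wit U H G`, `Reg b H` : the set of valuations which is counted;
* `Ext Z Y E`         : `Z → Y` contracts exactly `E`;
* `SubD`              : the output of the local analysis along a K3 centre;
* the statements of the packages; the glue is in `Bnd/Glue`.
-/

set_option autoImplicit false

open scoped KaehlerDifferential

noncomputable section

namespace Crest.Agent.X262.Bnd

open Crest.Agent.X277 Crest.Agent.X277.Lef Crest.Agent.X277.BD Crest.Agent.X277.Pst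
open Crest.Agent.X277.BD.Br (On oP kP)
open Crest.Agent.X277.BD.Cyc (Rf plV)
open Crest.Agent.X262.Mod Crest.Agent.X262.Sark
open Crest.Agent.X262.Geo (od)
open Crest.Agent.X262.Loc (cf)
open Crest.Agent.X262.Top (K3 Typ Hyp)
open List (replicate)

/-- bases of the differentials -/
abbrev Bs (n : ℕ) (F : Type) [Field F] [Algebra ℂ F] : Type := Module.Basis (Fin n) F Ω[F⁄ℂ]

/-- the field of a surface with `p_g > 0` -/
def PG2 (F : Type) [Field F] [Algebra ℂ F] : Prop :=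
  ∃ (P : PModel ℂ F) (c : Bs 2 F), Eff (kP P c)

/-- no subfield is the field of a surface with `p_g > 0` -/
def NoPG (K : Type) [Field K] [Algebra ℂ K] : Prop := ∀ L : IntermediateField ℂ K, ¬ PG2 L

/-- the constants of a ruled field -/
def al {κ F : Type} [Field κ] [Algebra ℂ κ] [Field F] [Algebra ℂ F] (e : κ ≃ₐ[ℂ] RatFunc F) :
    F →ₐ[ℂ] κ := (e.symm : RatFunc F →ₐ[ℂ] κ).comp (IsScalarTower.toAlgHom ℂ F (RatFunc F))

section Defs

variable {K : Type} [Field K] [Algebra ℂ K] {n : ℕ}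

/-- the field of the residues of `S` -/
def rsd (S : Set K) (V : RZ ℂ K) : IntermediateField ℂ (Rf V) :=
  IntermediateField.adjoin ℂ ((plV V).r '' S)

/-- the residue field of the centre of `V` on the `H`-model -/
def ctr (H : BD ℂ K) (V : RZ ℂ K) : IntermediateField ℂ (Rf V) := rsd (loc H V) V

/-- the algebraic closure of the residue field of the centre -/
def cl (H : BD ℂ K) (V : RZ ℂ K) : IntermediateField ℂ (Rf V) :=
  (algebraicClosure (ctr H V) (Rf V)).restrictScalars ℂ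

open Classical in
/-- the degree of `a` on the generic fibre `Rf V / L` (a curve) -/
def fdg (V : RZ ℂ K) (L : IntermediateField ℂ (Rf V)) (a : BD ℂ K) : ℤ :=
  if h : Algebra.EssFiniteType L (Rf V) then (haveI := h; bnum [up L ((plV V).rs a)]) else 0

/-- the centre of `V` on the `H`-model is a surface with `p_g > 0` -/
def Srf (H : BD ℂ K) (V : RZ ℂ K) : Prop := PG2 (ctr H V)

/-- the centre of `G` on `U` is a surface with `p_g > 0`, and no divisor with this centre is a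
prime of the `H`-model -/
def Wit {b : Bs n K} (U : TM b) (H : BD ℂ K) (G : RZ ℂ K) : Prop :=
  Srf U.H G ∧ ∀ V, Dvs V → loc U.H V = loc U.H G → ¬ Prm H V

/-- the valuations which are counted -/
def Reg (b : Bs n K) (H : BD ℂ K) : Set (RZ ℂ K) := {G | Dvs G ∧ ∃ U : TM b, Wit U H G}

/-- `Z → Y` contracts exactly the prime `E` -/
structure Ext {b : Bs n K} (Z Y : TM b) (E : RZ ℂ K) : Prop where
  car : Car Z.H Y.H
  nE : ¬ Prm Y.H E
  prm : ∀ V, Prm Z.H V ↔ Prm Y.H V ∨ V = E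

theorem ext_of {b : Bs n K} {A : BD ℂ K} {Z : TM b} (d : DivE b A Z) : Ext Z d.Y.toTM d.E :=
  ⟨d.car, d.nE, d.prm⟩

/-- the output of the local analysis along a K3 centre: `N = l A - q κ` is ample on `Y`, `M` is its
free transform, `N - M = r E`, `N|E = p^* a`, `l A|E = p^* p` -/
structure SubD {b : Bs n K} (Y : MFS b) (E : RZ ℂ K) {F : Type} [Field F] [Algebra ℂ F]
    [Algebra.EssFiniteType ℂ F] {d : ℕ} (k : K3 F d) (α : F →ₐ[ℂ] Rf E) where
  /-- `r = q * Y.r` -/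
  q : ℕ
  /-- the twist -/
  l : ℕ
  /-- the transform -/
  M : BD ℂ K
  /-- the class of `N` on the surface -/
  a : BD ℂ F
  /-- the class of `l A` on the surface -/
  p : BD ℂ F
  q_pos : 0 < q
  N_amp : (l • Y.A - q • Y.κ - Y.H).Free
  M_free : M.Free
  M_le : M ≤ l • Y.A - q • Y.κ
  M_eq : EqOn Y.H M (l • Y.A - q • Y.κ)
  M_od : od E (l • Y.A - q • Y.κ - M) = (q * Y.r : ℕ)
  M_dg : fdg E α.fieldRange M = (q * Y.r : ℕ)
  a_free : a.Free
  a_big : Big a
  p_free : p.Free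
  a_lin : Lin ((plV E).rs (l • Y.A - q • Y.κ)) (pb α a)
  p_lin : Lin ((plV E).rs (l • Y.A)) (pb α p)
  I1 : ∀ (Q : PModel ℂ F) (c : Bs 2 F) (D : BD ℂ F), D ∈ On Q → Nef D → Car a D →
    (q * Y.r : ℕ) * bnum [kP Q c, D] ≤ bnum [a + p, D]
  I2 : NumZ p → ((q * Y.r : ℕ) * d : ℤ) ≤ 4 * bnum [a, k.L]

end Defs

/-! ### the statements -/

/-- PG: `p_g > 0` passes to finite extensions -/
def PGStmt : Prop := ∀ (F F' : Type) [Field F] [Algebra ℂ F] [Field F'] [Algebra ℂ F']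
  [Algebra.EssFiniteType ℂ F'] (_ : F →ₐ[ℂ] F'), PG2 F → dim ℂ F' = 2 → PG2 F'

/-- PG: the ruling of a surface with `p_g > 0` -/
def RulStmt : Prop := ∀ (F L : Type) [Field F] [Algebra ℂ F] [Field L] [Algebra ℂ L]
  (φ : F →ₐ[ℂ] RatFunc L), PG2 F → ∀ x, φ x ∈ (algebraMap L (RatFunc L)).range

/-- PG: rational fields -/
def NoPGStmt : Prop := ∀ (K : Type) [Field K] [Algebra ℂ K], Nonempty (Hyp 4 0 K) → NoPG K

/-- LIVE (Zariski's main theorem in codimension two) -/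
def LiveStmt : Prop := ∀ (K : Type) [Field K] [Algebra ℂ K] [Algebra.EssFiniteType ℂ K]
  (H a : BD ℂ K) (V : RZ ℂ K), IsMod H → a.Free → dim ℂ (ctr H V) + 2 = dim ℂ K →
    (∀ W, Dvs W → loc H W = loc H V → ctr a W ≤ cl H W) → loc a V ≤ loc H V

/-- RC: the ruling of an exceptional divisor over a surface with `p_g > 0` is contracted -/
def RCStmt : Prop := ∀ (K : Type) [Field K] [Algebra ℂ K] [Algebra.EssFiniteType ℂ K]
  (b : Bs 4 K) (Y : TM b) (V : RZ ℂ K) (L : IntermediateField ℂ (Rf V)), Dvs V → ¬ Prm Y.H V →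
    PG2 L → ∀ x ∈ ctr Y.H V, IsAlgebraic L x

/-- CAR2: discrepancies over a centre of codimension two are at least one -/
def Car2Stmt : Prop := ∀ (K : Type) [Field K] [Algebra ℂ K] [Algebra.EssFiniteType ℂ K]
  (b : Bs 4 K) (U : TM b) (W : PModel ℂ K) (V : RZ ℂ K), Prm (oP W) V → dim ℂ (ctr U.H V) = 2 →
    (U.r : ℤ) ≤ od V (U.r • kP W b - U.κ)

/-- J1: a terminal extraction with a surface as centre is generically the blow-up -/
def J1Stmt : Prop := ∀ (K : Type) [Field K] [Algebra ℂ K] [Algebra.EssFiniteType ℂ K]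
  (b : Bs 4 K) (Z Y : TM b) (E : RZ ℂ K), Ext Z Y E → dim ℂ (ctr Y.H E) = 2 →
    Nonempty (Rf E ≃ₐ[cl Y.H E] RatFunc (cl Y.H E)) ∧ fdg E (cl Y.H E) (-Z.κ) = Z.r ∧
      od E (Y.r • Z.κ - Z.r • Y.κ) = (Y.r * Z.r : ℕ)

/-- END: on a smooth model every exceptional divisor of K3 type is counted -/
def EndStmt : Prop := ∀ (K : Type) [Field K] [Algebra ℂ K] [Algebra.EssFiniteType ℂ K]
  (b : Bs 4 K) (P : PModel ℂ K) (G : RZ ℂ K), Dvs G → ¬ Prm (oP P) G → Typ 0 (Rf G) →
    G ∈ Reg b (oP P)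

/-- DIV-A (Lemma A): a witnessed divisor is contracted to a surface -/
def DivAStmt : Prop := ∀ (K : Type) [Field K] [Algebra ℂ K] [Algebra.EssFiniteType ℂ K]
  (b : Bs 4 K) (U Z Y : TM b) (E : RZ ℂ K), Ext Z Y E → Wit U Y.H E → dim ℂ (ctr Y.H E) = 2

/-- DIV-B: and the witness is the local ring of `Y` -/
def DivBStmt : Prop := ∀ (K : Type) [Field K] [Algebra ℂ K] [Algebra.EssFiniteType ℂ K]
  (b : Bs 4 K) (U Z Y : TM b) (E : RZ ℂ K), Ext Z Y E → Wit U Y.H E → dim ℂ (ctr Y.H E) = 2 →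
    loc Y.H E = loc U.H E

/-- VOL: a fibration with fibres of bounded anticanonical volume -/
def VolStmt : Prop := ∃ C : ℕ, ∀ (K : Type) [Field K] [Algebra ℂ K] [Algebra.EssFiniteType ℂ K]
  (b : Bs 4 K) (Y : MFS b), ∃ M : IntermediateField ℂ K, cf Y.A ≤ M ∧
    (∀ x, IsAlgebraic M x → x ∈ M) ∧ min 2 (dim (cf Y.A) K) ≤ dim M K ∧
      bnum (replicate (dim M K) (up M (-Y.κ))) ≤ ((C * Y.r : ℕ) : ℤ) ^ dim M K

/-- SUB: the local analysis (A) -/
def SubStmt : Prop := ∀ (K : Type) [Field K] [Algebra ℂ K] [Algebra.EssFiniteType ℂ K]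
  (b : Bs 4 K) (A : BD ℂ K) (Z : TM b) (d : DivE b A Z) (F : Type) [Field F] [Algebra ℂ F]
  [Algebra.EssFiniteType ℂ F] (δ : ℕ) (k : K3 F δ) (e : Rf d.E ≃ₐ[ℂ] RatFunc F), 5 ≤ δ →
    Srf d.Y.H d.E → Nonempty (SubD d.Y d.E k (al e))

/-- FAM: the family lemma (B) and the K3 endgame -/
def FamStmt : Prop := ∃ C : ℕ, ∀ (K : Type) [Field K] [Algebra ℂ K] [Algebra.EssFiniteType ℂ K]
  (b : Bs 4 K) (Y : MFS b) (E : RZ ℂ K) (F : Type) [Field F] [Algebra ℂ F]
  [Algebra.EssFiniteType ℂ F] (δ : ℕ) (k : K3 F δ) (e : Rf E ≃ₐ[ℂ] RatFunc F), NoPG K → Dvs E →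
    C ≤ δ → Nonempty (SubD Y E k (al e)) → dim ℂ (cf Y.A) = 3 ∧ PG2 (rsd (cf Y.A) E)

/-- T3: conic bundles, the two components of the fibre over a surface with `p_g > 0` -/
def T3Stmt : Prop := ∀ (K : Type) [Field K] [Algebra ℂ K] [Algebra.EssFiniteType ℂ K]
  (b : Bs 4 K) (A : BD ℂ K) (Z Z' : TM b) (d : DivE b A Z), SameP Z.H Z'.H → dim ℂ (cf A) = 3 →
    Srf d.Y.H d.E → PG2 (rsd (cf A) d.E) → IsEmpty (FibE b A Z') ∧ ∀ d' : DivE b A Z',
      d'.E = d.E ∨ (Srf d'.Y.H d'.E ∧ Nonempty (Rf d.E ≃ₐ[ℂ] Rf d'.E))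

end Crest.Agent.X262.Bnd
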