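import Crest.Agent.X262.Surf.K3n
import Crest.Agent.X262.Mod79.Neg
import Crest.Agent.X277.Unf.Main

/-!
# Row 262, BND (helper51): the endgame on the K3 surface

* `KD k a p r` : the two inequalities of `Bnd.SubD`;
* `KD.e1` : bounded volume; `KD.e2` : bounded degree on a family of curves.
-/

set_option autoImplicit false

open scoped KaehlerDifferential

noncomputable section

namespace Crest.Agent.X262.Bnd

open Crest.Agent.X277 Crest.Agent.X277.Lef Crest.Agent.X277.BD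
open Crest.Agent.X277.BD.Br (On oP kP)
open Crest.Agent.X262.Mod Crest.Agent.X262.Surf
open Crest.Agent.X262.Top (K3)

variable {F : Type} [Field F] [Algebra ℂ F] [Algebra.EssFiniteType ℂ F] {d r v : ℕ} {k : K3 F d}
  {a p y : BD ℂ F}

/-- the data on the surface -/
structure KD (k : K3 F d) (a p : BD ℂ F) (r : ℕ) : Prop where
  r_pos : 0 < r
  a_free : a.Free
  a_big : Big a
  p_free : p.Free
  car : Car a p
  I1 : ∀ (Q : PModel ℂ F) (c : B2 F) (D : BD ℂ F), D ∈ On Q → Nef D → Car a D →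
    (r : ℤ) * bnum [kP Q c, D] ≤ bnum [a + p, D]
  I2 : NumZ p → (r * d : ℤ) ≤ 4 * bnum [a, k.L]

theorem big_L (k : K3 F d) : Big k.L := (K3n.nef_L k).big_iff.2 (by
  rw [K3n.dim_two k]
  exact k.L_sq ▸ Int.natCast_pos.2 (K3n.d_pos k))

theorem pos_L (k : K3 F d) (hy : Nef y) (h : ¬ NumZ y) : 0 < bnum [y, k.L] :=
  lt_of_le_of_ne (bnum_nonneg (by simp [hy, K3n.nef_L k])) fun h0 =>
    h (hy.numZ (by simp [K3n.nef_L k, big_L k]) (by simp [K3n.dim_two k]) h0.symm)

/-- Siu's inequality against a positive functional -/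
theorem siu_phi (k : K3 F d) (φ : BD ℂ F →+ ℤ) (h1 : ∀ x, Big x → 0 ≤ φ x) (h2 : (d : ℤ) ≤ φ k.L)
    (hy : Nef y) (hb : Big y) : d * bnum [y, y] ≤ 2 * φ y * bnum [y, k.L] := by
  by_contra hc
  have hd := K3n.d_pos k
  obtain ⟨s, hs⟩ := Int.eq_ofNat_of_zero_le (bnum_nonneg (l := [y, k.L]) (by simp [hy, K3n.nef_L k]))
  obtain ⟨f, hf⟩ := Int.eq_ofNat_of_zero_le (h1 y hb)
  have h3 := h1 _ (big_sub (d := 1) (K3n.dim_two k) hy (K3n.nef_L k) (p := (2 * s + 1) * d)
    (q := (2 * s + 1) * f + 1) (by positivity) (by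
      change _ * _ * bnum [k.L, y] < _ * bnum [y, y]
      rw [bnum_swap k.L, hs]
      rw [hs, hf] at hc
      push_cast
      nlinarith))
  rw [map_sub, map_nsmul, map_nsmul, hf, nsmul_eq_mul, nsmul_eq_mul] at h3
  have h4 : (0 : ℤ) < d := Int.natCast_pos.2 hd
  push_cast at h3
  nlinarith [mul_le_mul_of_nonneg_left h2 (show (0 : ℤ) ≤ (2 * s + 1) * f + 1 by positivity)]

namespace KD

variable (hK : KStmt) (h : KD k a p r)

include hK h

theorem exists_k (hy : Nef y) (hc : Car a y) : ∃ κ : ℤ, 0 ≤ κ ∧ r * κ ≤ bnum [a + p, y] ∧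
    bnum [y, k.L] ^ 2 ≤ d * (bnum [y, y] + κ ^ 2) := by
  classical
  obtain ⟨Q, hQ⟩ := Unf.exists_on {oP k.P, y}
  exact ⟨_, num_nonneg (K3n.k_eff k (hQ _ (by simp)) k.b) hy, h.I1 Q k.b y (hQ _ (by simp)) hy hc,
    hK F d k Q k.b (hQ _ (by simp)) y (hQ _ (by simp)) hy⟩

/-- **bounded volume** -/
theorem e1 (hp : NumZ p) (hv : bnum [a, a] ≤ v * r ^ 2) : d ≤ 16 * (v + v ^ 2) := by
  obtain ⟨κ, h0, h1, h2⟩ := h.exists_k hK h.a_free.nef (car_self h.a_free)
  rw [bnum_add, hp, add_zero] at h1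
  have h3 := h.I2 hp
  have hr : (0 : ℤ) < r := Int.natCast_pos.2 h.r_pos
  have hd : (0 : ℤ) < d := Int.natCast_pos.2 (K3n.d_pos k)
  have h4 : κ ≤ v * r := le_of_mul_le_mul_left (by nlinarith) hr
  have h5 : κ ^ 2 ≤ (v * r) ^ 2 := pow_le_pow_left₀ h0 h4 2
  have h6 : (r * d : ℤ) ^ 2 ≤ (4 * bnum [a, k.L]) ^ 2 := pow_le_pow_left₀ (by positivity) h3 2
  have h7 : (r ^ 2 * d * d : ℤ) ≤ r ^ 2 * d * (16 * (v + v ^ 2)) := by nlinarith
  exact_mod_cast le_of_mul_le_mul_left h7 (by positivity)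

/-- **bounded degree on a family of curves** -/
theorem e2 (φ : BD ℂ F →+ ℤ) (h1 : ∀ x, Big x → 0 ≤ φ x) (h2 : (d : ℤ) ≤ φ k.L) (h3 : φ p = 0)
    (h4 : φ a ≤ v * r) : d ≤ 8 * v + 4 * v ^ 2 := by
  have hr : (0 : ℤ) < r := Int.natCast_pos.2 h.r_pos
  have hd : (0 : ℤ) < d := Int.natCast_pos.2 (K3n.d_pos k)
  have ha := h.a_free.nef
  have hs : 0 ≤ bnum [a, k.L] := bnum_nonneg (by simp [ha, K3n.nef_L k])
  by_cases hp : NumZ p
  · obtain ⟨κ, h0, h5, h6⟩ := h.exists_k hK ha (car_self h.a_free)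
    rw [bnum_add, hp, add_zero] at h5
    have h7 := h.I2 hp
    have h8 := siu_phi k φ h1 h2 ha h.a_big
    generalize bnum [a, k.L] = s at *
    generalize bnum [a, a] = w at *
    have h9 : d * w ≤ 2 * (v * r) * s := h8.trans (by nlinarith)
    have h10 : d * κ ≤ 2 * v * s := le_of_mul_le_mul_left (by nlinarith) hr
    have h11 : (d * κ) ^ 2 ≤ (2 * v * s) ^ 2 := pow_le_pow_left₀ (by positivity) h10 2
    have h12 : 0 < s := by nlinarith [mul_pos hr hd]
    have h13 : (d : ℤ) * (d * w) ≤ 8 * v * s ^ 2 := by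
      nlinarith [mul_le_mul_of_nonneg_left h9 hd.le,
        mul_le_mul_of_nonneg_left h7 (show (0 : ℤ) ≤ 2 * v * s by positivity)]
    have h14 : s ^ 2 * d ≤ s ^ 2 * (8 * v + 4 * v ^ 2) := by
      nlinarith [mul_le_mul_of_nonneg_left h6 hd.le]
    exact_mod_cast le_of_mul_le_mul_left h14 (by positivity)
  · have hn := h.p_free.nef
    have ht := pos_L k hn hp
    have h0 : bnum [p, p] = 0 := by
      refine le_antisymm (not_lt.1 fun hc => ?_) (bnum_nonneg (by simp [hn]))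
      have h5 := siu_phi k φ h1 h2 hn (hn.big_iff.2 (by rwa [K3n.dim_two k]))
      rw [h3] at h5
      nlinarith
    have h5 : ∀ c : ℕ, d * (2 * c * bnum [a, p]) ≤
        2 * φ a * (bnum [a, k.L] + c * bnum [p, k.L]) := fun c => by
      have h6 := siu_phi k φ h1 h2 (ha.add (hn.nsmul c)) (h.a_big.add_psef (hn.nsmul c).psef)
      rw [map_add, map_nsmul, h3, smul_zero, add_zero, bnum_add, bnum_add, bnum_add2, bnum_add2,
        bnum_nsmul, bnum_nsmul, bnum_nsmul, bnum_nsmul2, bnum_nsmul2, h0, bnum_swap p a] at h6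
      nlinarith [mul_nonneg hd.le (bnum_nonneg (l := [a, a]) (by simp [ha]))]
    obtain ⟨κ, h6, h7, h8⟩ := h.exists_k hK hn h.car
    rw [bnum_add, h0, add_zero] at h7
    rw [h0, zero_add] at h8
    have hf := h1 a h.a_big
    generalize bnum [a, k.L] = s at *
    generalize bnum [p, k.L] = t at *
    generalize bnum [a, p] = u at *
    generalize φ a = f at *
    have h9 : d * u ≤ f * t := not_lt.1 fun hc => by
      have h10 := h5 (f * s + 1).toNat
      rw [Int.toNat_of_nonneg (by positivity)] at h10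
      nlinarith [mul_nonneg hf hs]
    have h10 : d * κ ≤ v * t := le_of_mul_le_mul_left (by nlinarith) hr
    have h11 : (d * κ) ^ 2 ≤ (v * t) ^ 2 := pow_le_pow_left₀ (by positivity) h10 2
    have h12 : t ^ 2 * d ≤ t ^ 2 * v ^ 2 := by nlinarith [mul_le_mul_of_nonneg_left h8 hd.le]
    have h13 : d ≤ v ^ 2 := by exact_mod_cast le_of_mul_le_mul_left h12 (by positivity)
    omega

end KD

end Crest.Agent.X262.Bnd
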