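import Crest.Agent.X262.DivB81.Ctr
import Crest.Agent.X262.End95.Cl
import Crest.Agent.X262.End95.Pg
import Crest.Agent.X262.Live3.Main

/-!
# Row 262, BND (helper51): the glue

* `reg_same`, `reg_of_srf`, `div` : the set `Reg` changes only at contractions to surfaces;
* `big`  : a K3 centre of large degree lies over a conic bundle;
* `step` : one step of the Sarkisov program is balanced;
* `birStmt_of` : `Top.BirStmt`.
-/

set_option autoImplicit false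

noncomputable section

namespace Crest.Agent.X262.Bnd

open Crest.Agent.X277 Crest.Agent.X277.Lef Crest.Agent.X277.BD Crest.Agent.X277.Pst
open Crest.Agent.X277.BD.Br (On oP kP)
open Crest.Agent.X277.BD.Cyc (Rf plV)
open Crest.Agent.X262.Mod Crest.Agent.X262.Sark
open Crest.Agent.X262.Loc (cf)
open Crest.Agent.X262.Top (K3 Typ Hyp BalS Fd)

variable {K : Type} [Field K] [Algebra ℂ K] {b : Bs 4 K} {H H' H'' A : BD ℂ K} {G E : RZ ℂ K}
  {Z Z' Y : TM b} {C : ℕ}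

theorem reg_mono (h : ∀ V, Prm H' V → Prm H V) : Reg b H ⊆ Reg b H' :=
  fun _ ⟨h1, U, h2, h3⟩ => ⟨h1, U, h2, fun V hV hl hp => h3 V hV hl (h V hp)⟩

theorem reg_same (h : SameP H H') : Reg b H = Reg b H' :=
  (reg_mono fun V => (h V).2).antisymm (reg_mono fun V => (h V).1)

theorem not_prm_of_reg (h : G ∈ Reg b H) : ¬ Prm H G := h.2.choose_spec.2 G h.1 rfl

theorem Ext.prmE (e : Ext Z Y E) : Prm Z.H E := (e.prm E).2 (Or.inr rfl)

theorem Ext.le (e : Ext Z Y E) : Reg b Z.H ⊆ Reg b Y.H :=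
  reg_mono fun V h => (e.prm V).2 (Or.inl h)

variable [Algebra.EssFiniteType ℂ K]

/-- a divisor whose centre is a surface with `p_g > 0` is counted -/
theorem reg_of_srf (Y : TM b) (hG : Dvs G) (h : Srf Y.H G) : G ∈ Reg b Y.H :=
  ⟨hG, Y, h, fun V hV hl hp => by
    have h1 := (End95.prm_iff_dim_ctr Y.mod hV).1 hp
    rw [DivB.dim_ctr_congr hV hG hl, End95.PG2.dim h, DivB.dim_of_bs b] at h1
    omega⟩

theorem srf_up (hH : IsMod H') (h : Car H' H) (hG : Dvs G) (hp : ¬ Prm H' G) (b : Bs 4 K)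
    (hs : Srf H G) : Srf H' G := by
  have := Geo.essFT_Rf hG
  let α := IntermediateField.inclusion (DivB.ctr_mono (h.loc_le G))
  have h1 := dim_le α
  have h2 := Loc.dim_cen_le (d := 2) hH hG hp (DivB.dim_of_bs b)
  rw [← End95.dim_ctr hH.free hG] at h2
  rw [End95.PG2.dim hs] at h1
  exact End95.PG2.up hs α (le_antisymm h2 h1)

/-- **the counted set changes only at contractions to surfaces** -/
theorem div (hA : DivAStmt) (hB : DivBStmt) (e : Ext Z Y E) (hG : G ∈ Reg b Y.H)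
    (hZ : G ∉ Reg b Z.H) : G = E ∧ Srf Y.H E := by
  have hY := not_prm_of_reg hG
  obtain ⟨h1, U, h2, h3⟩ := hG
  obtain ⟨V, hV, hl, hp⟩ : ∃ V, Dvs V ∧ loc U.H V = loc U.H G ∧ Prm Z.H V := by
    by_contra hc
    exact hZ ⟨h1, U, h2, fun V hV hl hp => hc ⟨V, hV, hl, hp⟩⟩
  obtain rfl : V = E := ((e.prm V).1 hp).resolve_left (h3 V hV hl)
  have hw : Wit U Y.H V := ⟨DivB.srf_congr End95.pgStmt h1 hV hl.symm h2,
    fun W hW h => h3 W hW (h.trans hl)⟩
  have h4 := hB K b U Z Y V e hw (hA K b U Z Y V e hw)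
  have h5 := DivB.srf_congr End95.pgStmt hV hV h4.symm hw.1
  refine ⟨by_contra fun hc => hZ ?_, h5⟩
  have h6 : loc Y.H G = loc Y.H V := by
    refine Live3.loc_eq_of_dom Y.mod.free (fun x hx => mem_of_loc (hl ▸ h4 ▸ hx : x ∈ loc U.H G))
      fun x hx h => ?_
    have hx' : x ∈ loc U.H G := hl ▸ h4 ▸ hx
    exact lt_of_le_of_ne (RZ.le_one_iff.2 (mem_of_loc hx')) fun h' =>
      h.ne (Live3.v_eq_one_of_loc hl hx' h')
  exact reg_of_srf Z h1 (srf_up Z.mod e.car h1 (fun h => ((e.prm G).1 h).elim hY hc) b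
    (DivB.srf_congr End95.pgStmt hV h1 h6.symm h5))

theorem mem_reg (hA : DivAStmt) (hB : DivBStmt) (e : Ext Z Y E) :
    G ∈ Reg b Y.H ↔ G ∈ Reg b Z.H ∨ (G = E ∧ Srf Y.H E) := by
  refine ⟨fun h => (em _).imp_right (div hA hB e h), ?_⟩
  rintro (h | ⟨rfl, h⟩)
  · exact e.le h
  · exact reg_of_srf Y e.prmE.dvs h

/-- a K3 centre of large degree lies over a conic bundle -/
def BigStmt : Prop := ∃ C : ℕ, ∀ (K : Type) [Field K] [Algebra ℂ K] [Algebra.EssFiniteType ℂ K]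
  (b : Bs 4 K) (A : BD ℂ K) (Z : TM b) (d : DivE b A Z), NoPG K → Srf d.Y.H d.E →
    Typ C (Rf d.E) → dim ℂ (cf A) = 3 ∧ PG2 (rsd (cf A) d.E)

theorem big (hS : SubStmt) (hF : FamStmt) : BigStmt := by
  obtain ⟨C, hC⟩ := hF
  refine ⟨max C 5, fun K _ _ _ b A Z d hK hs ⟨F, _, _, _, δ, h1, ⟨k⟩, ⟨e⟩⟩ => ?_⟩
  have h2 := hC K b d.Y d.E F δ k e hK (ext_of d).prmE.dvs (le_of_max_le_left h1)
    (hS K b A Z d F δ k e (le_of_max_le_right h1) hs)
  rwa [d.hA] at h2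

/-- an end of a link changes the counted set by at most one member -/
theorem end_fin (hA : DivAStmt) (hB : DivBStmt) (h : End b A Z H) :
    Reg b Z.H ⊆ Reg b H ∧ (Reg b H \ Reg b Z.H).Finite := by
  rcases h with ⟨d, h⟩ | ⟨f, h⟩
  · rw [← reg_same h]
    exact ⟨(ext_of d).le, (Set.finite_singleton d.E).subset fun G hG =>
      (div hA hB (ext_of d) hG.1 hG.2).1⟩
  · rw [← reg_same h, reg_same f.same]
    simp

/-- an end is a bad divisorial end, or it does not change the members of type `Typ C` -/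
theorem end_cases (hA : DivAStmt) (hB : DivBStmt) (C : ℕ) (h : End b A Z H) :
    (∃ d : DivE b A Z, SameP d.Y.H H ∧ Srf d.Y.H d.E ∧ Typ C (Rf d.E)) ∨
      ∀ V, Typ C (Rf V) → (V ∈ Reg b H ↔ V ∈ Reg b Z.H) := by
  rcases h with ⟨d, h⟩ | ⟨f, h⟩
  · by_cases hb : Srf d.Y.H d.E ∧ Typ C (Rf d.E)
    · exact Or.inl ⟨d, h, hb⟩
    · refine Or.inr fun V hV => ?_
      rw [← reg_same h, mem_reg hA hB (ext_of d)]
      exact or_iff_left fun ⟨h1, h2⟩ => hb ⟨h2, h1 ▸ hV⟩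
  · exact Or.inr fun V _ => by rw [← reg_same h, reg_same f.same]

/-- a link with a bad end is balanced -/
theorem link_bad (hA : DivAStmt) (hB : DivBStmt) (hT : T3Stmt) (hZ : SameP Z.H Z'.H)
    (d : DivE b A Z) (h : SameP d.Y.H H) (hs : Srf d.Y.H d.E) (h3 : dim ℂ (cf A) = 3)
    (hp : PG2 (rsd (cf A) d.E)) (h' : End b A Z' H') : BalS C (Reg b H) (Reg b H') := by
  obtain ⟨h1, h2⟩ := hT K b A Z Z' d hZ h3 hs hp
  rcases h' with ⟨d', h'⟩ | ⟨f, -⟩
  swap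
  · exact h1.elim f
  rw [← reg_same h, ← reg_same h']
  have m1 := fun G => mem_reg (G := G) hA hB (ext_of d)
  have m2 := fun G => mem_reg (G := G) hA hB (ext_of d')
  by_cases hE : d'.E = d.E
  · have h4 : SameP d.Y.H d'.Y.H := fun V => by
      by_cases hV : V = d.E
      · exact iff_of_false (hV ▸ d.nE) (hV ▸ hE ▸ d'.nE)
      · have h5 := (d.prm V).symm.trans ((hZ V).trans (d'.prm V))
        rwa [hE, or_iff_left hV, or_iff_left hV] at h5
    rw [reg_same h4]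
    exact Top.BalS.refl _ _
  obtain ⟨h4, h5⟩ := (h2 d').resolve_left hE
  have n1 : d.E ∉ Reg b Z.H := fun h => not_prm_of_reg h (ext_of d).prmE
  have n2 : d'.E ∉ Reg b Z'.H := fun h => not_prm_of_reg h (ext_of d').prmE
  refine Top.balS_of_pair ((m1 _).2 (Or.inr ⟨rfl, hs⟩)) (fun h => ?_)
    ((m2 _).2 (Or.inr ⟨rfl, h4⟩)) (fun h => ?_) h5 fun V _ e1 e2 => ?_
  · exact ((m2 _).1 h).elim (fun h => n1 (reg_same hZ ▸ h)) fun h => hE h.1.symm
  · exact ((m1 _).1 h).elim (fun h => n2 (reg_same hZ ▸ h)) fun h => hE h.1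
  · rw [m1, m2, or_iff_left fun h => e1 h.1, or_iff_left fun h => e2 h.1, reg_same hZ]

/-- **one step is balanced** -/
theorem step (hA : DivAStmt) (hB : DivBStmt) (hT : T3Stmt)
    (hC : ∀ (A : BD ℂ K) (Z : TM b) (d : DivE b A Z), Srf d.Y.H d.E → Typ C (Rf d.E) →
      dim ℂ (cf A) = 3 ∧ PG2 (rsd (cf A) d.E)) (h : Step b H H') :
    Fd C (Reg b H) (Reg b H') ∧ BalS C (Reg b H) (Reg b H') := by
  rcases h with h | ⟨A, Z, Z', -, hZ, -, -, h, h'⟩
  · rw [reg_same h]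
    exact ⟨Top.Fd.refl _ _, Top.BalS.refl _ _⟩
  have f := end_fin hA hB h
  have f' := end_fin hA hB h'
  rw [← reg_same hZ] at f'
  refine ⟨Top.fd_of_finite (f.2.subset fun _ hV => ⟨hV.1, fun hc => hV.2 (f'.1 hc)⟩)
    (f'.2.subset fun _ hV => ⟨hV.1, fun hc => hV.2 (f.1 hc)⟩), ?_⟩
  rcases end_cases hA hB C h with ⟨d, h1, h2, h3⟩ | h1
  · exact link_bad hA hB hT hZ d h1 h2 (hC A Z d h2 h3).1 (hC A Z d h2 h3).2 h'
  rcases end_cases hA hB C h' with ⟨d, h2, h3, h4⟩ | h2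
  · exact (link_bad hA hB hT hZ.symm d h2 h3 (hC A Z' d h3 h4).1 (hC A Z' d h3 h4).2 h).symm
  · exact Top.balS_of_same fun V hV => by rw [h1 V hV, h2 V hV, reg_same hZ]

theorem exS_reg (hE : EndStmt) (P X : PModel ℂ K) {τ : RZ ℂ K → Prop}
    (hτ : ∀ V, τ V → Typ C (Rf V)) :
    Top.ExS τ (Reg b (oP P)) (Reg b (oP X)) = Top.Ex τ (oP X) (oP P) := by
  ext V
  refine ⟨fun ⟨h1, h2, h3⟩ => ⟨by_contra fun hc => h2 ?_, not_prm_of_reg h1, h3⟩,
    fun ⟨h1, h2, h3⟩ => ⟨?_, fun h => not_prm_of_reg h h1, h3⟩⟩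
  · exact hE K b X V h1.1 hc ((hτ V h3).mono (Nat.zero_le _))
  · exact hE K b P V h1.dvs h2 ((hτ V h3).mono (Nat.zero_le _))

/-- **the glue of the layers SARK and BND** -/
theorem birStmt_of (h0 : SarkStmt 3) (hE : EndStmt) (hA : DivAStmt) (hB : DivBStmt)
    (hS : SubStmt) (hF : FamStmt) (hT : T3Stmt) : Top.BirStmt := by
  obtain ⟨C, hC⟩ := big hS hF
  refine ⟨C, fun K _ _ b P X hK hP hX τ h1 h2 => ?_⟩
  have := Geo.eft P
  have h3 := (Top.balS_of_chain (Reg b) (fun _ _ => step hA hB hT fun A Z d =>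
    hC K b A Z d (End95.noPGStmt K hK)) (h0 K b P X ⟨hP.anti, hP.rho⟩ ⟨hX.anti, hX.rho⟩)).2 τ h1 h2
  rw [exS_reg hE P X h2, exS_reg hE X P h2] at h3
  exact h3.symm

end Crest.Agent.X262.Bnd
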