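import Crest.Agent.X262.Bnd.Main2
import Crest.Agent.X262.Rl57.SubS

/-!
# Row 262, BND (helper51): the birational layer
-/

set_option autoImplicit false

namespace Crest.Agent.X262.Bnd

/-- the birational layer from the cohomology theory -/
theorem birStmt {C : Coh.Th} (A : C.Ax) : Top.BirStmt := birStmt_of2 A Rl57.subStmt

end Crest.Agent.X262.Bnd
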