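import Crest.Agent.X262.Bnd.Glue
import Crest.Agent.X262.Bnd79.Main
import Crest.Agent.X262.RC14.Main
import Crest.Agent.X262.Reg18.Adj
import Crest.Agent.X262.DivB81.Main
import Crest.Agent.X262.End95.End
import Crest.Agent.X262.Top.T3
import Crest.Agent.X262.Qt.Main
import Crest.Agent.X262.Qt.Rf
import Crest.Agent.X262.Gfm18.V77
import Crest.Agent.X262.Vol77.Main
import Crest.Agent.X262.Wr72.Hil
import Crest.Agent.X262.R1.Beta
import Crest.Agent.X262.Sark.Main
import Crest.Agent.X262.FG.Main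

/-!
# Row 262, BND (helper51): the closed packages
-/

set_option autoImplicit false

namespace Crest.Agent.X262.Bnd

theorem volStmt : VolStmt := Gfm.volS_of_77 (Vol77.vol_of Wr72.hil R1.beta 4)

theorem endStmt : EndStmt := End95.endStmt_of Qt.qtStmt Qt.rfStmt

theorem divBStmt : DivBStmt :=
  DivB.divB_of End95.pgStmt Live3.liveStmt RC14.rcStmt Bnd79.car2Stmt Bnd79.j1Stmt

theorem t3Stmt : T3Stmt := Top.t3_of Bnd79.j1Stmt RC14.rcStmt End95.pgStmt

/-- the birational layer from the open leaves -/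
theorem birStmt_of0 (hN : FG.NSStmt) (hL : Reg.LemAStmt) (hS : SubStmt) (hF : FamStmt) :
    Top.BirStmt :=
  birStmt_of (Sark.sark_of_fg (FG.aStmt hN 4)) endStmt (Reg.divA RC14.rcStmt hL) divBStmt hS hF
    t3Stmt

end Crest.Agent.X262.Bnd
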