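import Crest.Agent.X262.Bnd.Main0
import Crest.Agent.X262.Rl57.LemB
import Crest.Agent.X262.Fam17.Main
import Crest.Agent.X262.Surf.G3
import Crest.Agent.X262.Surf.Unim
import Crest.Agent.X262.RR.All
import Crest.Agent.X262.KV.Srf
import Crest.Agent.X262.Sg1.Main
import Crest.Agent.X262.Pure.Main
import Crest.Agent.X262.Hor83.KExc
import Crest.Agent.X262.Gen.Main
import Crest.Agent.X262.Gal71.Norm
import Crest.Agent.X262.K3c80.Main
import Crest.Agent.X262.G3Num.Econ
import Crest.Agent.X262.Int23.K3
import Crest.Agent.X262.Min33.Out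
import Crest.Agent.X262.FG.NsCoh

/-!
# Row 262, BND (helper51): the birational layer from the cohomology theory
-/

set_option autoImplicit false

namespace Crest.Agent.X262.Bnd

open Crest.Agent.X262.Surf Crest.Agent.X262.RR

theorem resStmt : ResStmt := fun _ _ _ _ T => X277.Unf.exists_on T

theorem kStmt : KStmt := Min33.kStmt rrStmt serStmt

theorem minStmt : Int23.MinStmt := Min33.minStmt rrStmt serStmt

variable {C : Coh.Th} (A : C.Ax)

include A

theorem g3_of1 (hM : MonoStmt) (hC : CmpStmt) : G3Stmt :=
  g3_of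
    { ser := serStmt, kv := KV.kvStmt, bir := chiBirStmt, flag := Sg1.flagStmt, up := Sg1.upStmt
      low := Sg1.lowStmt, pure := Pure.pureStmt, mono := hM, res := resStmt
      kexc := Hor83.kExcStmt, rr := rrStmt, gen := Gen.genStmt, cmp := hC
      norm := Gal71.normStmt, chi := K3c.k3ChiStmt rrStmt, trk := Int23.trkStmt A minStmt
      kk := kStmt, unim := unimStmt A
      econ := G3Num.econStmt (Min33.thMinStmt rrStmt serStmt resStmt) rrStmt serStmt KV.kvStmt
        (unimStmt A) }

/-- the birational layer from the cohomology theory and the open leaves -/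
theorem birStmt_of1 (hM : MonoStmt) (hC : CmpStmt) (hS : SubStmt) : Top.BirStmt :=
  birStmt_of0 (FG.ns_of C A.man A.pd) Rl57.lemA hS
    (Fam.fam_of volStmt kStmt (g3_of1 A hM hC) End95.pgStmt)

end Crest.Agent.X262.Bnd
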