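import Crest.Agent.X262.Bnd.Main1
import Crest.Agent.X262.Mono15.Main

/-!
# Row 262, BND (helper51): the birational layer from the cohomology theory and `SubStmt`
-/

set_option autoImplicit false

namespace Crest.Agent.X262.Bnd

/-- the birational layer from the cohomology theory and the local analysis -/
theorem birStmt_of2 {C : Coh.Th} (A : C.Ax) (hS : SubStmt) : Top.BirStmt :=
  birStmt_of1 A Mono15.monoStmt Mono15.cmpStmt hS

end Crest.Agent.X262.Bnd
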